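import Vale.Agent.P247.H74.L1.Est

/-!
# P247, L1: the alternative
-/

open scoped ContDiff Topology
open Set MeasureTheory Filter Metric Asymptotics

noncomputable section

namespace Vale.Agent.P247.H74.L1

variable {D : Data} {u v : ℂ → R4} {b : R4} {z₀ w₀ : ℂ} {Ψ : R4 → ℂ × ℂ}

/-- the alternative for the normal coordinate -/
theorem dich (SP : SP_statement) (hu : JH D u) (hv : JH D v) (h0 : u z₀ = v w₀)
    (hC : Coord D v w₀ b Ψ) :
    (∀ᶠ z in 𝓝 z₀, (Ψ (u z)).2 = 0) ∨ ∃ (m : ℕ) (a : ℂ), 1 ≤ m ∧ a ≠ 0 ∧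
      (fun z => (Ψ (u z)).2 - a * (z - z₀) ^ m) =o[𝓝 z₀] (fun z => (z - z₀) ^ m) := by
  set L : ℂ × ℂ →L[ℝ] (Fin 1 → ℂ) := ContinuousLinearMap.pi fun _ => ContinuousLinearMap.snd ℝ ℂ ℂ
    with hL
  set U : ℂ → Fin 1 → ℂ := fun z => L (Ψ (u (z₀ + z))) with hU
  have hUa : ∀ z i, U z i = (Ψ (u (z₀ + z))).2 := fun z i => rfl
  have ht : Tendsto (fun z => z₀ + z) (𝓝 0) (𝓝 z₀) := by
    have : Tendsto (fun z => z₀ + z) (𝓝 0) (𝓝 (z₀ + 0)) := tendsto_const_nhds.add tendsto_id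
    rwa [add_zero] at this
  have hcd := ht.eventually (evt_contDiffAt hu h0 hC)
  obtain ⟨C, hC2⟩ := (isBigO_main hu hv h0 hC).bound
  have hC3 := ht.eventually hC2
  have hcdU : ∀ᶠ z in 𝓝 (0 : ℂ), ContDiffAt ℝ 2 U z ∧ ∀ h, fderiv ℝ U z h =
      L (fderiv ℝ (fun z => Ψ (u z)) (z₀ + z) h) := by
    filter_upwards [hcd] with z hz
    have h1 : ContDiffAt ℝ 2 (fun z => z₀ + z) z := contDiffAt_const.add contDiffAt_id
    have h2 : ContDiffAt ℝ 2 (fun z => Ψ (u (z₀ + z))) z := hz.comp z h1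
    refine ⟨L.contDiff.contDiffAt.comp z h2, fun h => ?_⟩
    have h3 : HasFDerivAt (fun z => Ψ (u (z₀ + z))) ((fderiv ℝ (fun z => Ψ (u z)) (z₀ + z))) z := by
      have h4 := (hz.differentiableAt (by norm_num)).hasFDerivAt
      have h5 : HasFDerivAt (fun z : ℂ => z₀ + z) (ContinuousLinearMap.id ℝ ℂ) z := by
        exact (hasFDerivAt_id z).const_add z₀
      exact h4.comp z h5
    have h6 : HasFDerivAt U (L.comp (fderiv ℝ (fun z => Ψ (u z)) (z₀ + z))) z :=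
      L.hasFDerivAt.comp z h3
    rw [h6.fderiv]
    rfl
  obtain ⟨R, hR, hR2⟩ := Metric.eventually_nhds_iff_ball.1 (hcdU.and hC3)
  have hN : ∀ (x : Fin 1 → ℂ), ‖x‖ = ‖x 0‖ := fun x => by
    rw [Pi.norm_def]; simp
  have key := SP 1 U R C hR (fun z hz => (hR2 z hz).1.1.continuousAt.continuousWithinAt)
    (fun z hz => ((hR2 z hz.1).1.1.of_le (by norm_num)).contDiffWithinAt)
    (fun z hz => by
      have h1 := (hR2 z hz.1).2
      have h2 := (hR2 z hz.1).1.2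
      rw [hN, hN]
      have h3 : (dbar U z) 0 = (1 / 2 : ℂ) * Complex.I *
          (fderiv ℝ (fun z => Ψ (u z)) (z₀ + z) Complex.I -
            Complex.I • fderiv ℝ (fun z => Ψ (u z)) (z₀ + z) 1).2 := by
        simp only [dbar, h2, Pi.smul_apply, Pi.add_apply, smul_eq_mul, Prod.snd_sub, Prod.smul_snd]
        simp only [hL, ContinuousLinearMap.pi_apply, ContinuousLinearMap.coe_snd']
        linear_combination (1 / 2 : ℂ) * (fderiv ℝ (fun z => Ψ (u z)) (z₀ + z) 1).2 * Complex.I_sq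
      rw [h3, hUa, norm_mul, norm_mul, Complex.norm_I]
      have h4 : ‖(1 / 2 : ℂ)‖ = 1 / 2 := by simp
      rw [h4]
      have h5 := (norm_snd_le (fderiv ℝ (fun z => Ψ (u z)) (z₀ + z) Complex.I -
            Complex.I • fderiv ℝ (fun z => Ψ (u z)) (z₀ + z) 1)).trans h1
      have h6 := norm_nonneg (fderiv ℝ (fun z => Ψ (u z)) (z₀ + z) Complex.I -
            Complex.I • fderiv ℝ (fun z => Ψ (u z)) (z₀ + z) 1).2
      linarith)
  have ht' : Tendsto (fun z => z - z₀) (𝓝 z₀) (𝓝 0) := by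
    have : Tendsto (fun z => z - z₀) (𝓝 z₀) (𝓝 (z₀ - z₀)) := tendsto_id.sub tendsto_const_nhds
    rwa [sub_self] at this
  have hUb : ∀ z, U (z - z₀) 0 = (Ψ (u z)).2 := fun z => by rw [hUa, add_sub_cancel]
  rcases key with ⟨r, hr, h1⟩ | ⟨m, a, ha, h1⟩
  · left
    filter_upwards [ht'.eventually (ball_mem_nhds 0 hr)] with z hz
    rw [← hUb, h1 _ hz]; rfl
  · right
    have ha0 : a 0 ≠ 0 := by
      intro h
      apply ha
      ext i
      fin_cases i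
      exact h
    have h2 : (fun z => (Ψ (u z)).2 - a 0 * (z - z₀) ^ m) =o[𝓝 z₀] (fun z => (z - z₀) ^ m) := by
      have h3 := h1.comp_tendsto ht'
      refine (isLittleO_norm_left.1 (h3.norm_left.congr' ?_ EventuallyEq.rfl))
      filter_upwards with z
      simp only [Function.comp, hN, Pi.sub_apply, Pi.smul_apply, smul_eq_mul, hUb]
      rw [mul_comm]
    refine ⟨m, a 0, ?_, ha0, h2⟩
    by_contra hm
    have hm0 : m = 0 := by omega
    subst hm0
    apply ha0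
    simp only [pow_zero, mul_one] at h2
    have h3 := (isLittleO_one_iff ℂ).1 h2
    have h4 : Tendsto (fun z => (Ψ (u z)).2 - a 0) (𝓝 z₀) (𝓝 (0 - a 0)) := by
      refine Tendsto.sub ?_ tendsto_const_nhds
      have := ((contAt_Q hu h0 hC).snd).tendsto
      rwa [Q_base h0 hC] at this
    have h5 := tendsto_nhds_unique h3 h4
    simpa using h5.symm

/-- if the normal coordinate vanishes near `z₀`, then `u` runs inside `v` -/
theorem locIn_of (hu : JH D u) (hv : JH D v) (h0 : u z₀ = v w₀) (hC : Coord D v w₀ b Ψ)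
    (h : ∀ᶠ z in 𝓝 z₀, (Ψ (u z)).2 = 0) : LocIn u v z₀ w₀ := by
  obtain ⟨C, hC2⟩ := (isBigO_main hu hv h0 hC).bound
  obtain ⟨ε, hε, hε2⟩ := Metric.eventually_nhds_iff_ball.1
    (((h.and hC2).and (evt_contDiffAt hu h0 hC)).and (evt_right hu h0 hC))
  refine ⟨ε, hε, fun z => (Ψ (u z)).1, fun z hz => ?_, ?_, fun z hz => ?_⟩
  · apply DifferentiableAt.differentiableWithinAt
    obtain ⟨⟨⟨h1, h2⟩, h3⟩, h4⟩ := hε2 z hz
    rw [h1, norm_zero, mul_zero] at h2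
    have h5 := norm_le_zero_iff.1 h2
    have h6 : HasFDerivAt (fun z => (Ψ (u z)).1)
        ((ContinuousLinearMap.fst ℝ ℂ ℂ).comp (fderiv ℝ (fun z => Ψ (u z)) z)) z :=
      (h3.differentiableAt (by norm_num)).hasFDerivAt.fst
    rw [differentiableAt_complex_iff_differentiableAt_real]
    refine ⟨h6.differentiableAt, ?_⟩
    rw [h6.fderiv]
    have h7 := congrArg Prod.fst h5
    simp only [Prod.fst_sub, Prod.smul_fst, Prod.fst_zero] at h7
    exact sub_eq_zero.1 h7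
  · show (Ψ (u z₀)).1 = w₀
    rw [Q_base h0 hC]
  · obtain ⟨⟨⟨h1, h2⟩, h3⟩, h4⟩ := hε2 z hz
    have h5 : Ψ (u z) = ((Ψ (u z)).1, 0) := by rw [← h1]
    show u z = v (Ψ (u z)).1
    conv_lhs => rw [← h4, h5]
    rw [Th_base]

/-- near `w₀`, the normal coordinate of `v` vanishes -/
theorem evt_v (hC : Coord D v w₀ b Ψ) : ∀ᶠ w in 𝓝 w₀, Ψ (v w) = (w, 0) := by
  have h1 : Tendsto (fun w : ℂ => ((w, 0) : ℂ × ℂ)) (𝓝 w₀) (𝓝 (w₀, 0)) :=
    (continuous_id.prodMk continuous_const).tendsto w₀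
  filter_upwards [h1.eventually hC.left] with w hw
  rwa [Th_base] at hw

/-- the normal coordinate does not vanish near an isolated intersection -/
theorem evt_ne {N : ℂ → ℂ} {m : ℕ} {a : ℂ} (ha : a ≠ 0)
    (h : (fun z => N z - a * (z - z₀) ^ m) =o[𝓝 z₀] (fun z => (z - z₀) ^ m)) :
    ∀ᶠ z in 𝓝[≠] z₀, N z ≠ 0 := by
  have h1 : ∀ᶠ z in 𝓝[≠] z₀, ‖N z - a * (z - z₀) ^ m‖ ≤ ‖a‖ / 2 * ‖(z - z₀) ^ m‖ :=
    (h.bound (c := ‖a‖ / 2) (by positivity)).filter_mono nhdsWithin_le_nhds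
  filter_upwards [h1, self_mem_nhdsWithin] with z hz hz2 hz3
  rw [hz3, zero_sub, norm_neg, norm_mul] at hz
  have h3 : 0 < ‖(z - z₀) ^ m‖ := norm_pos_iff.2 (pow_ne_zero _ (sub_ne_zero.2 hz2))
  have h4 : 0 < ‖a‖ := norm_pos_iff.2 ha
  nlinarith

/-- isolated intersections -/
theorem isol_of (h0 : u z₀ = v w₀) (hC : Coord D v w₀ b Ψ)
    {m : ℕ} {a : ℂ} (ha : a ≠ 0)
    (h : (fun z => (Ψ (u z)).2 - a * (z - z₀) ^ m) =o[𝓝 z₀] (fun z => (z - z₀) ^ m)) :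
    Isol u v z₀ w₀ := by
  have h1 := evt_ne ha h
  rw [eventually_nhdsWithin_iff] at h1
  obtain ⟨ε, hε, hε2⟩ := Metric.eventually_nhds_iff_ball.1 h1
  obtain ⟨ε', hε', hε2'⟩ := Metric.eventually_nhds_iff_ball.1 (evt_v hC)
  refine ⟨min ε ε', lt_min hε hε', fun z hz w hw hzw => ?_⟩
  have h2 := hε2' w (ball_subset_ball (min_le_right _ _) hw)
  have hz0 : z = z₀ := by
    by_contra hne
    apply hε2 z (ball_subset_ball (min_le_left _ _) hz) hne
    rw [hzw, h2]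
  refine ⟨hz0, ?_⟩
  rw [← hzw, hz0, Q_base h0 hC] at h2
  exact (congrArg Prod.fst h2).symm

end Vale.Agent.P247.H74.L1
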