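import Vale.Agent.P247.H74.Sta

/-!
# P247, L1: coordinates along an immersed `J`-holomorphic curve
-/

open scoped ContDiff Topology
open Set MeasureTheory Filter Metric Asymptotics

noncomputable section

namespace Vale.Agent.P247.H74.L1

variable (D : Data) (v : ℂ → R4) (b : R4)

/-- the coordinates along `v` -/
def Th (q : ℂ × ℂ) : R4 := v q.1 + q.2.re • b + q.2.im • D.J (v q.1) b

/-- the linear part of the derivative of `Th` -/
def Lm (ζ : ℂ) : ℂ × ℂ →L[ℝ] R4 :=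
  (fderiv ℝ v ζ).comp (ContinuousLinearMap.fst ℝ ℂ ℂ) +
    ((Complex.reCLM.smulRight b) + (Complex.imCLM.smulRight (D.J (v ζ) b))).comp
      (ContinuousLinearMap.snd ℝ ℂ ℂ)

theorem Lm_apply (ζ : ℂ) (q : ℂ × ℂ) :
    Lm D v b ζ q = fderiv ℝ v ζ q.1 + (q.2.re • b + q.2.im • D.J (v ζ) b) := rfl

theorem cm_mul (x : R4) (w w' : ℂ) (a : R4) : cm D x w (cm D x w' a) = cm D x (w * w') a := by
  simp only [cm, map_add, map_smul, D.J_sq, Complex.mul_re, Complex.mul_im]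
  module

theorem cm_one (x : R4) (a : R4) : cm D x 1 a = a := by simp [cm]

theorem cm_zero (x : R4) (a : R4) : cm D x 0 a = 0 := by simp [cm]

theorem cm_vec_zero (x : R4) (w : ℂ) : cm D x w 0 = 0 := by simp [cm]

theorem cm_add (x : R4) (w : ℂ) (a a' : R4) : cm D x w (a + a') = cm D x w a + cm D x w a' := by
  simp only [cm, map_add]; module

theorem cm_neg (x : R4) (w : ℂ) (a : R4) : cm D x w (-a) = - cm D x w a := by
  simp only [cm, map_neg]; module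

theorem cm_add_left (x : R4) (w w' : ℂ) (a : R4) : cm D x (w + w') a = cm D x w a + cm D x w' a := by
  simp only [cm, Complex.add_re, Complex.add_im]; module

theorem cm_sub_left (x : R4) (w w' : ℂ) (a : R4) : cm D x (w - w') a = cm D x w a - cm D x w' a := by
  simp only [cm, Complex.sub_re, Complex.sub_im]; module

theorem cm_I (x : R4) (a : R4) : cm D x Complex.I a = D.J x a := by simp [cm]

theorem J_cm (x : R4) (w : ℂ) (a : R4) : D.J x (cm D x w a) = cm D x (Complex.I * w) a := by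
  rw [← cm_mul, cm_I]

variable {D v b}

/-- the derivative of a `J`-holomorphic curve is complex linear -/
theorem fderiv_eq_cm (hv : JH D v) (ζ w : ℂ) : fderiv ℝ v ζ w = cm D (v ζ) w (fderiv ℝ v ζ 1) := by
  have h : w = w.re • (1 : ℂ) + w.im • Complex.I := by
    apply Complex.ext <;> simp
  conv_lhs => rw [h]
  rw [map_add, map_smul, map_smul, hv.2 ζ]
  rfl

theorem J_fderiv (hv : JH D v) (ζ w : ℂ) :
    D.J (v ζ) (fderiv ℝ v ζ w) = fderiv ℝ v ζ (Complex.I * w) := by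
  rw [fderiv_eq_cm hv ζ w, J_cm, ← fderiv_eq_cm hv]

theorem Lm_eq_cm (hv : JH D v) (ζ : ℂ) (q : ℂ × ℂ) :
    Lm D v b ζ q = cm D (v ζ) q.1 (fderiv ℝ v ζ 1) + cm D (v ζ) q.2 b := by
  rw [Lm_apply, fderiv_eq_cm hv]; rfl

theorem J_Lm (hv : JH D v) (ζ : ℂ) (q : ℂ × ℂ) :
    D.J (v ζ) (Lm D v b ζ q) = Lm D v b ζ (Complex.I * q.1, Complex.I * q.2) := by
  rw [Lm_eq_cm hv, Lm_eq_cm hv, map_add, J_cm, J_cm]

theorem contDiff_Jb (hv : ContDiff ℝ ∞ v) : ContDiff ℝ ∞ (fun ζ => D.J (v ζ) b) :=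
  (D.J_smooth.comp hv).clm_apply contDiff_const

theorem contDiff_Th (hv : ContDiff ℝ ∞ v) : ContDiff ℝ ∞ (Th D v b) := by
  unfold Th
  have h1 : ContDiff ℝ ∞ (fun q : ℂ × ℂ => v q.1) := hv.comp contDiff_fst
  have h2 : ContDiff ℝ ∞ (fun q : ℂ × ℂ => q.2.re) := Complex.reCLM.contDiff.comp contDiff_snd
  have h3 : ContDiff ℝ ∞ (fun q : ℂ × ℂ => q.2.im) := Complex.imCLM.contDiff.comp contDiff_snd
  have h4 : ContDiff ℝ ∞ (fun q : ℂ × ℂ => D.J (v q.1) b) := (contDiff_Jb hv).comp contDiff_fst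
  exact (h1.add (h2.smul contDiff_const)).add (h3.smul h4)

/-- the derivative of the coordinates -/
theorem hasFDerivAt_Th (hv : ContDiff ℝ ∞ v) (q : ℂ × ℂ) :
    HasFDerivAt (Th D v b) (Lm D v b q.1 +
      q.2.im • ((fderiv ℝ (fun ζ => D.J (v ζ) b) q.1).comp (ContinuousLinearMap.fst ℝ ℂ ℂ))) q := by
  have h1 : HasFDerivAt (fun q : ℂ × ℂ => v q.1)
      ((fderiv ℝ v q.1).comp (ContinuousLinearMap.fst ℝ ℂ ℂ)) q :=
    ((hv.differentiable (by simp)) q.1).hasFDerivAt.comp q hasFDerivAt_fst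
  have h2 : HasFDerivAt (fun q : ℂ × ℂ => q.2.re)
      (Complex.reCLM.comp (ContinuousLinearMap.snd ℝ ℂ ℂ)) q :=
    Complex.reCLM.hasFDerivAt.comp q hasFDerivAt_snd
  have h3 : HasFDerivAt (fun q : ℂ × ℂ => q.2.im)
      (Complex.imCLM.comp (ContinuousLinearMap.snd ℝ ℂ ℂ)) q :=
    Complex.imCLM.hasFDerivAt.comp q hasFDerivAt_snd
  have h4 : HasFDerivAt (fun q : ℂ × ℂ => D.J (v q.1) b)
      ((fderiv ℝ (fun ζ => D.J (v ζ) b) q.1).comp (ContinuousLinearMap.fst ℝ ℂ ℂ)) q :=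
    (((contDiff_Jb hv).differentiable (by simp)) q.1).hasFDerivAt.comp q hasFDerivAt_fst
  have h5 := (h1.add (h2.smul_const b)).add (h3.smul h4)
  refine h5.congr_fderiv ?_
  ext x i <;> simp [Lm, add_comm, add_left_comm, add_assoc]

theorem exists_b (a : R4) (x : R4) :
    ∃ b : R4, ∀ w : ℂ, b ≠ cm D x w a := by
  by_contra hcon
  push Not at hcon
  have h1 : Function.Surjective
      ((Complex.reCLM.smulRight a) + (Complex.imCLM.smulRight (D.J x a)) : ℂ →L[ℝ] R4) := by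
    intro b
    obtain ⟨w, hw⟩ := hcon b
    exact ⟨w, by rw [hw]; rfl⟩
  have h2 := LinearMap.finrank_le_finrank_of_surjective
    (f := ((Complex.reCLM.smulRight a) + (Complex.imCLM.smulRight (D.J x a)) : ℂ →L[ℝ] R4).toLinearMap)
    h1
  rw [Complex.finrank_real_complex, show Module.finrank ℝ R4 = 4 by simp [R4]] at h2
  omega

theorem Lm_injective (hv : JH D v) (w₀ : ℂ) (hv1 : fderiv ℝ v w₀ 1 ≠ 0)
    (hb : ∀ w : ℂ, b ≠ cm D (v w₀) w (fderiv ℝ v w₀ 1)) :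
    Function.Injective (Lm D v b w₀) := by
  rw [injective_iff_map_eq_zero]
  rintro ⟨z, n⟩ h
  rw [Lm_eq_cm hv] at h
  simp only at h
  by_cases hn : n = 0
  · subst hn
    rw [cm_zero, add_zero] at h
    by_cases hz : z = 0
    · rw [hz]; rfl
    · exfalso
      apply hv1
      have h2 := congrArg (cm D (v w₀) z⁻¹) h
      rwa [cm_mul, inv_mul_cancel₀ hz, cm_one, cm_vec_zero] at h2
  · exfalso
    have h2 := congrArg (cm D (v w₀) n⁻¹) h
    rw [cm_add, cm_mul, cm_mul, inv_mul_cancel₀ hn, cm_one, cm_vec_zero] at h2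
    apply hb (-(n⁻¹ * z))
    have h3 : cm D (v w₀) (-(n⁻¹ * z)) (fderiv ℝ v w₀ 1) =
        - cm D (v w₀) (n⁻¹ * z) (fderiv ℝ v w₀ 1) := by
      simp only [cm, Complex.neg_re, Complex.neg_im]; module
    rw [h3]
    exact (neg_eq_of_add_eq_zero_right h2).symm

/-- the linear part as an equivalence -/
def Leq {w₀ : ℂ} (hL : Function.Injective (Lm D v b w₀)) : (ℂ × ℂ) ≃L[ℝ] R4 :=
  ((Lm D v b w₀).toLinearMap.linearEquivOfInjective hL
    (by simp [R4, Complex.finrank_real_complex])).toContinuousLinearEquiv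

theorem Leq_coe {w₀ : ℂ} (hL : Function.Injective (Lm D v b w₀)) :
    ((Leq hL : (ℂ × ℂ) ≃L[ℝ] R4) : (ℂ × ℂ) →L[ℝ] R4) = Lm D v b w₀ := by
  ext <;> rfl

/-- coordinates along an immersed curve -/
structure Coord (D : Data) (v : ℂ → R4) (w₀ : ℂ) (b : R4) (Ψ : R4 → ℂ × ℂ) : Prop where
  base : Ψ (v w₀) = (w₀, 0)
  right : ∀ᶠ x in 𝓝 (v w₀), Th D v b (Ψ x) = x
  left : ∀ᶠ q in 𝓝 ((w₀, 0) : ℂ × ℂ), Ψ (Th D v b q) = q
  smooth : ∀ᶠ x in 𝓝 (v w₀), ContDiffAt ℝ 2 Ψ x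
  lower : ∃ c > 0, ∀ᶠ ζ in 𝓝 w₀, ∀ q, c * ‖q‖ ≤ ‖Lm D v b ζ q‖

theorem Th_base (w : ℂ) : Th D v b (w, 0) = v w := by simp [Th]

theorem continuous_Lm (hv : ContDiff ℝ ∞ v) : Continuous (Lm D v b) := by
  unfold Lm
  have h1 : Continuous fun ζ => fderiv ℝ v ζ := hv.continuous_fderiv (by simp)
  have h2 : Continuous fun ζ => D.J (v ζ) b := (contDiff_Jb hv).continuous
  have h3 : Continuous fun ζ => Complex.imCLM.smulRight (D.J (v ζ) b) :=
    (ContinuousLinearMap.smulRightL ℝ ℂ R4 Complex.imCLM).continuous.comp h2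
  exact (h1.clm_comp continuous_const).add ((continuous_const.add h3).clm_comp continuous_const)

theorem exists_coord (hv : JH D v) (w₀ : ℂ) (hv1 : fderiv ℝ v w₀ 1 ≠ 0) :
    ∃ (b : R4) (Ψ : R4 → ℂ × ℂ), Coord D v w₀ b Ψ := by
  obtain ⟨b, hb⟩ := exists_b (D := D) (fderiv ℝ v w₀ 1) (v w₀)
  have hL := Lm_injective hv w₀ hv1 hb
  have hc : ContDiffAt ℝ 2 (Th D v b) (w₀, 0) := ((contDiff_Th hv.1).of_le (WithTop.coe_le_coe.2 le_top)).contDiffAt
  have hd : HasFDerivAt (Th D v b) ((Leq hL : (ℂ × ℂ) ≃L[ℝ] R4) : (ℂ × ℂ) →L[ℝ] R4) (w₀, 0) := by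
    have := hasFDerivAt_Th (D := D) (b := b) hv.1 (w₀, 0)
    rw [Leq_coe]
    simpa using this
  have hn : (2 : WithTop ℕ∞) ≠ 0 := by norm_num
  refine ⟨b, hc.localInverse hd hn, ?_, ?_, ?_, ?_, ?_⟩
  · have := hc.localInverse_apply_image hd hn
    rwa [Th_base] at this
  · have h1 : (hc.toOpenPartialHomeomorph (Th D v b) hd hn).target ∈ 𝓝 (v w₀) := by
      have h2 := hc.image_mem_toOpenPartialHomeomorph_target hd hn
      rw [Th_base] at h2
      exact (hc.toOpenPartialHomeomorph (Th D v b) hd hn).open_target.mem_nhds h2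
    filter_upwards [h1] with x hx
    exact (hc.toOpenPartialHomeomorph (Th D v b) hd hn).right_inv hx
  · have h1 : (hc.toOpenPartialHomeomorph (Th D v b) hd hn).source ∈ 𝓝 ((w₀, 0) : ℂ × ℂ) :=
      (hc.toOpenPartialHomeomorph (Th D v b) hd hn).open_source.mem_nhds
        (hc.mem_toOpenPartialHomeomorph_source hd hn)
    filter_upwards [h1] with x hx
    exact (hc.toOpenPartialHomeomorph (Th D v b) hd hn).left_inv hx
  · have h1 := hc.to_localInverse hd hn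
    rw [Th_base] at h1
    exact h1.eventually (by simp)
  · -- lower bound
    obtain ⟨K, hK, hK2⟩ : ∃ K > 0, ∀ q, K * ‖q‖ ≤ ‖Lm D v b w₀ q‖ := by
      obtain ⟨K, hK⟩ : ∃ K : NNReal, AntilipschitzWith K (Leq hL) :=
        ⟨_, (Leq hL).antilipschitz⟩
      refine ⟨((K : ℝ) + 1)⁻¹, by positivity, fun q => ?_⟩
      have h1 := hK.le_mul_dist q 0
      rw [dist_zero_right, map_zero, dist_zero_right] at h1
      have h2 : ‖Leq hL q‖ = ‖Lm D v b w₀ q‖ := by rw [← Leq_coe hL]; rfl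
      rw [h2] at h1
      rw [inv_mul_le_iff₀ (by positivity)]
      nlinarith [norm_nonneg (Lm D v b w₀ q)]
    refine ⟨K / 2, by positivity, ?_⟩
    have h1 := (continuous_Lm (D := D) (b := b) hv.1).continuousAt (x := w₀)
    have h2 := Metric.continuousAt_iff.1 h1 (K / 2) (by positivity)
    obtain ⟨δ, hδ, h3⟩ := h2
    filter_upwards [ball_mem_nhds w₀ hδ] with ζ hζ q
    have h4 : ‖Lm D v b ζ - Lm D v b w₀‖ ≤ K / 2 := by
      rw [← dist_eq_norm]; exact (h3 hζ).le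
    have h5 : ‖(Lm D v b ζ - Lm D v b w₀) q‖ ≤ K / 2 * ‖q‖ :=
      (ContinuousLinearMap.le_opNorm _ _).trans (by gcongr)
    have h6 := hK2 q
    have h7 : ‖Lm D v b w₀ q‖ ≤ ‖Lm D v b ζ q‖ + ‖(Lm D v b ζ - Lm D v b w₀) q‖ := by
      have : Lm D v b w₀ q = Lm D v b ζ q - (Lm D v b ζ - Lm D v b w₀) q := by
        simp
      calc ‖Lm D v b w₀ q‖ = ‖Lm D v b ζ q - (Lm D v b ζ - Lm D v b w₀) q‖ := by rw [← this]
        _ ≤ _ := norm_sub_le _ _
    linarith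

end Vale.Agent.P247.H74.L1
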