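import Vale.Agent.P247.H74.L1.Coord

/-!
# P247, L1: the normal coordinate satisfies a Cauchy-Riemann inequality
-/

open scoped ContDiff Topology
open Set MeasureTheory Filter Metric Asymptotics

noncomputable section

namespace Vale.Agent.P247.H74.L1

variable {D : Data} {u v : ℂ → R4} {b : R4} {z₀ w₀ : ℂ} {Ψ : R4 → ℂ × ℂ}

theorem tendsto_u (hu : JH D u) (h0 : u z₀ = v w₀) : Tendsto u (𝓝 z₀) (𝓝 (v w₀)) := by
  rw [← h0]; exact hu.1.continuous.continuousAt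

theorem evt_contDiffAt (hu : JH D u) (h0 : u z₀ = v w₀) (hC : Coord D v w₀ b Ψ) :
    ∀ᶠ z in 𝓝 z₀, ContDiffAt ℝ 2 (fun z => Ψ (u z)) z := by
  filter_upwards [(tendsto_u hu h0).eventually hC.smooth] with z hz
  exact hz.comp z ((hu.1.of_le (WithTop.coe_le_coe.2 le_top)).contDiffAt)

theorem evt_right (hu : JH D u) (h0 : u z₀ = v w₀) (hC : Coord D v w₀ b Ψ) :
    ∀ᶠ z in 𝓝 z₀, Th D v b (Ψ (u z)) = u z :=
  (tendsto_u hu h0).eventually hC.right

/-- the derivative of `u` in terms of the coordinates -/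
theorem evt_fderiv (hu : JH D u) (hv : JH D v) (h0 : u z₀ = v w₀) (hC : Coord D v w₀ b Ψ) :
    ∀ᶠ z in 𝓝 z₀, ∀ h : ℂ, fderiv ℝ u z h = Lm D v b (Ψ (u z)).1 (fderiv ℝ (fun z => Ψ (u z)) z h) +
      (Ψ (u z)).2.im • (fderiv ℝ (fun ζ => D.J (v ζ) b) (Ψ (u z)).1)
        (fderiv ℝ (fun z => Ψ (u z)) z h).1 := by
  filter_upwards [(evt_right hu h0 hC).eventually_nhds, evt_contDiffAt hu h0 hC] with z hz hz2 h
  have h1 : HasFDerivAt (fun z => Ψ (u z)) (fderiv ℝ (fun z => Ψ (u z)) z) z :=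
    (hz2.differentiableAt (by norm_num)).hasFDerivAt
  have h2 := (hasFDerivAt_Th (D := D) (b := b) hv.1 (Ψ (u z))).comp z h1
  have h3 : fderiv ℝ u z = _ := (h2.congr_of_eventuallyEq (f₁ := u)
    (by filter_upwards [hz] with w hw; exact hw.symm)).fderiv
  rw [h3]
  rfl

/-- the equation in the coordinates -/
theorem evt_eq (hu : JH D u) (hv : JH D v) (h0 : u z₀ = v w₀) (hC : Coord D v w₀ b Ψ) :
    ∀ᶠ z in 𝓝 z₀, Lm D v b (Ψ (u z)).1 (fderiv ℝ (fun z => Ψ (u z)) z Complex.I -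
        Complex.I • fderiv ℝ (fun z => Ψ (u z)) z 1) =
      (D.J (u z) - D.J (v (Ψ (u z)).1)) (fderiv ℝ u z 1) -
      (Ψ (u z)).2.im • ((fderiv ℝ (fun ζ => D.J (v ζ) b) (Ψ (u z)).1)
          (fderiv ℝ (fun z => Ψ (u z)) z Complex.I).1 -
        D.J (v (Ψ (u z)).1) ((fderiv ℝ (fun ζ => D.J (v ζ) b) (Ψ (u z)).1)
          (fderiv ℝ (fun z => Ψ (u z)) z 1).1)) := by
  filter_upwards [evt_fderiv hu hv h0 hC] with z hz
  have h1 := hz 1
  have h2 := hz Complex.I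
  have h3 := hu.2 z
  have h4 : Lm D v b (Ψ (u z)).1 (Complex.I • fderiv ℝ (fun z => Ψ (u z)) z 1) =
      D.J (v (Ψ (u z)).1) (Lm D v b (Ψ (u z)).1 (fderiv ℝ (fun z => Ψ (u z)) z 1)) := by
    rw [J_Lm hv]; rfl
  rw [map_sub, h4]
  have h5 : Lm D v b (Ψ (u z)).1 (fderiv ℝ (fun z => Ψ (u z)) z 1) = fderiv ℝ u z 1 -
      (Ψ (u z)).2.im • (fderiv ℝ (fun ζ => D.J (v ζ) b) (Ψ (u z)).1)
        (fderiv ℝ (fun z => Ψ (u z)) z 1).1 := by
    rw [h1]; abel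
  have h6 : Lm D v b (Ψ (u z)).1 (fderiv ℝ (fun z => Ψ (u z)) z Complex.I) =
      D.J (u z) (fderiv ℝ u z 1) -
      (Ψ (u z)).2.im • (fderiv ℝ (fun ζ => D.J (v ζ) b) (Ψ (u z)).1)
        (fderiv ℝ (fun z => Ψ (u z)) z Complex.I).1 := by
    rw [← h3, h2]; abel
  rw [h5, h6, map_sub, map_smul, _root_.sub_apply]
  module

theorem contAt_Q (hu : JH D u) (h0 : u z₀ = v w₀) (hC : Coord D v w₀ b Ψ) :
    ContinuousAt (fun z => Ψ (u z)) z₀ :=
  ((evt_contDiffAt hu h0 hC).self_of_nhds).continuousAt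

theorem Q_base (h0 : u z₀ = v w₀) (hC : Coord D v w₀ b Ψ) : Ψ (u z₀) = (w₀, 0) := by
  rw [h0, hC.base]

theorem contAt_fQ (hu : JH D u) (h0 : u z₀ = v w₀) (hC : Coord D v w₀ b Ψ) :
    ContinuousAt (fun z => fderiv ℝ (fun z => Ψ (u z)) z) z₀ :=
  (((evt_contDiffAt hu h0 hC).self_of_nhds).fderiv_right (m := 1) (by norm_num)).continuousAt

/-- the estimate -/
theorem isBigO_main (hu : JH D u) (hv : JH D v) (h0 : u z₀ = v w₀) (hC : Coord D v w₀ b Ψ) :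
    (fun z => fderiv ℝ (fun z => Ψ (u z)) z Complex.I -
        Complex.I • fderiv ℝ (fun z => Ψ (u z)) z 1) =O[𝓝 z₀] (fun z => (Ψ (u z)).2) := by
  have hQ := contAt_Q hu h0 hC
  have hfQ := contAt_fQ hu h0 hC
  have hQ1 : ContinuousAt (fun z => (Ψ (u z)).1) z₀ := hQ.fst
  have hQ1t : Tendsto (fun z => (Ψ (u z)).1) (𝓝 z₀) (𝓝 w₀) := by
    have := hQ1.tendsto
    rwa [Q_base h0 hC] at this
  -- step 1 : `J u - J (v ζ)`
  have hvQ : Tendsto (fun z => v (Ψ (u z)).1) (𝓝 z₀) (𝓝 (v w₀)) :=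
    (hv.1.continuous.tendsto w₀).comp hQ1t
  obtain ⟨K, t, ht, hK⟩ := ContDiffAt.exists_lipschitzOnWith (𝕂 := ℝ)
    ((D.J_smooth.of_le (WithTop.coe_le_coe.2 le_top)).contDiffAt (x := v w₀))
  have e1 : (fun z => u z - v (Ψ (u z)).1) =O[𝓝 z₀] (fun z => (Ψ (u z)).2) := by
    have hJb : (fun z => D.J (v (Ψ (u z)).1) b) =O[𝓝 z₀] (fun _ => (1 : ℝ)) :=
      (((contDiff_Jb hv.1).continuous.tendsto w₀).comp hQ1t).isBigO_one ℝ
    have h1 : (fun z => (Ψ (u z)).2.re • b + (Ψ (u z)).2.im • D.J (v (Ψ (u z)).1) b)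
        =O[𝓝 z₀] (fun z => (Ψ (u z)).2) := by
      have hre : (fun z => (Ψ (u z)).2.re) =O[𝓝 z₀] (fun z => (Ψ (u z)).2) :=
        isBigO_of_le _ fun z => by rw [Real.norm_eq_abs]; exact Complex.abs_re_le_norm _
      have him : (fun z => (Ψ (u z)).2.im) =O[𝓝 z₀] (fun z => (Ψ (u z)).2) :=
        isBigO_of_le _ fun z => by rw [Real.norm_eq_abs]; exact Complex.abs_im_le_norm _
      have hb1 : (fun _ : ℂ => b) =O[𝓝 z₀] (fun _ => (1 : ℝ)) := isBigO_const_const _ one_ne_zero _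
      have k1 := hre.norm_right.smul hb1
      have k2 := him.norm_right.smul hJb
      simp only [smul_eq_mul, mul_one] at k1 k2
      exact (k1.add k2).trans (isBigO_norm_left.2 (isBigO_refl _ _))
    refine h1.congr' ?_ EventuallyEq.rfl
    filter_upwards [evt_right hu h0 hC] with z hz
    have h2 : u z = v (Ψ (u z)).1 + (Ψ (u z)).2.re • b + (Ψ (u z)).2.im • D.J (v (Ψ (u z)).1) b :=
      hz.symm
    rw [eq_sub_iff_add_eq, add_comm, ← add_assoc]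
    exact h2.symm
  have e2 : (fun z => D.J (u z) - D.J (v (Ψ (u z)).1)) =O[𝓝 z₀] (fun z => (Ψ (u z)).2) := by
    refine IsBigO.trans ?_ e1
    refine IsBigO.of_bound K ?_
    filter_upwards [(tendsto_u hu h0).eventually ht, hvQ.eventually ht] with z hz1 hz2
    exact hK.norm_sub_le hz1 hz2
  have e3 : (fun z => (D.J (u z) - D.J (v (Ψ (u z)).1)) (fderiv ℝ u z 1)) =O[𝓝 z₀]
      (fun z => (Ψ (u z)).2) := by
    have h1 : (fun z => fderiv ℝ u z 1) =O[𝓝 z₀] (fun _ => (1 : ℝ)) :=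
      (((hu.1.continuous_fderiv (by simp)).clm_apply continuous_const).tendsto z₀).isBigO_one ℝ
    have h2 := e2.norm_norm.mul h1.norm_left
    have h3 : (fun z => (D.J (u z) - D.J (v (Ψ (u z)).1)) (fderiv ℝ u z 1)) =O[𝓝 z₀]
        (fun z => ‖D.J (u z) - D.J (v (Ψ (u z)).1)‖ * ‖fderiv ℝ u z 1‖) :=
      isBigO_of_le _ fun z => by
        rw [Real.norm_of_nonneg (by positivity)]
        exact ContinuousLinearMap.le_opNorm _ _
    have h4 := h3.trans h2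
    simp only [mul_one] at h4
    exact isBigO_norm_right.1 h4
  have e4 : (fun z => (fderiv ℝ (fun ζ => D.J (v ζ) b) (Ψ (u z)).1)
        (fderiv ℝ (fun z => Ψ (u z)) z Complex.I).1 -
      D.J (v (Ψ (u z)).1) ((fderiv ℝ (fun ζ => D.J (v ζ) b) (Ψ (u z)).1)
        (fderiv ℝ (fun z => Ψ (u z)) z 1).1)) =O[𝓝 z₀] (fun _ => (1 : ℝ)) := by
    have c1 : ContinuousAt (fun z => fderiv ℝ (fun ζ => D.J (v ζ) b) (Ψ (u z)).1) z₀ := by
      have h : Continuous (fderiv ℝ (fun ζ => D.J (v ζ) b)) :=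
        (contDiff_Jb hv.1).continuous_fderiv (by simp)
      exact h.continuousAt.comp hQ1
    have c2 : ContinuousAt (fun z => D.J (v (Ψ (u z)).1)) z₀ := by
      have h : Continuous (fun ζ => D.J (v ζ)) := D.J_smooth.continuous.comp hv.1.continuous
      exact h.continuousAt.comp hQ1
    have c3 : ∀ w : ℂ, ContinuousAt (fun z => (fderiv ℝ (fun z => Ψ (u z)) z w).1) z₀ := fun w =>
      (hfQ.clm_apply continuousAt_const).fst
    exact ((c1.clm_apply (c3 _)).sub (c2.clm_apply (c1.clm_apply (c3 _)))).tendsto.isBigO_one ℝ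
  have e5 : (fun z => (Ψ (u z)).2.im • ((fderiv ℝ (fun ζ => D.J (v ζ) b) (Ψ (u z)).1)
        (fderiv ℝ (fun z => Ψ (u z)) z Complex.I).1 -
      D.J (v (Ψ (u z)).1) ((fderiv ℝ (fun ζ => D.J (v ζ) b) (Ψ (u z)).1)
        (fderiv ℝ (fun z => Ψ (u z)) z 1).1))) =O[𝓝 z₀] (fun z => (Ψ (u z)).2) := by
    have him : (fun z => (Ψ (u z)).2.im) =O[𝓝 z₀] (fun z => (Ψ (u z)).2) :=
      isBigO_of_le _ fun z => by rw [Real.norm_eq_abs]; exact Complex.abs_im_le_norm _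
    have k2 := him.norm_right.smul e4
    simp only [smul_eq_mul, mul_one] at k2
    exact isBigO_norm_right.1 k2
  have e6 := (e3.sub e5).congr' ((evt_eq hu hv h0 hC).mono fun z hz => hz.symm) EventuallyEq.rfl
  refine IsBigO.trans ?_ e6
  obtain ⟨c, hc, hc2⟩ := hC.lower
  refine IsBigO.of_bound c⁻¹ ?_
  filter_upwards [hQ1t.eventually hc2] with z hz
  have := hz (fderiv ℝ (fun z => Ψ (u z)) z Complex.I -
        Complex.I • fderiv ℝ (fun z => Ψ (u z)) z 1)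
  rw [inv_mul_eq_div, le_div_iff₀ hc]
  linarith

end Vale.Agent.P247.H74.L1
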