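import Vale.Agent.P247.H74.L1.Stb
import Vale.Agent.P247.H74.WWIND.Wind
import Vale.Agent.P247.H74.SP.Main

/-!
# P247, L1: the package without hypotheses
-/

namespace Vale.Agent.P247.H74

/-- Package L1: a `J`-holomorphic curve which meets an immersed one either runs inside it locally,
or the intersection is isolated and stable. -/
theorem L1 : L1_statement := L1_of WWIND.W1 WWIND.W3 WWIND.W5 WWIND.W6 SP

end Vale.Agent.P247.H74
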