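import Vale.Agent.P247.H74.L1.L2a
import Vale.Agent.P247.H74.L1.Main

/-!
# P247, L2: two tori which coincide somewhere are equal
-/

open scoped ContDiff Topology
open Set MeasureTheory Filter Metric Asymptotics

noncomputable section

namespace Vale.Agent.P247.H74.L2

theorem LocIn.eq {u v : ℂ → R4} {z w : ℂ} (h : LocIn u v z w) : u z = v w := by
  obtain ⟨ε, hε, ζ, -, h1, h2⟩ := h
  rw [h2 z (mem_ball_self hε), h1]

/-- continuation: a curve which runs inside a closed embedded curve near one point runs inside it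
everywhere -/
theorem continuation (hL : L1_statement) {D : Data} {u v : ℂ → R4} (hu : JH D u) (hv : JH D v)
    (hv1 : ∀ w, fderiv ℝ v w 1 ≠ 0) (hemb : Topology.IsClosedEmbedding v)
    (h0 : ∃ z w, LocIn u v z w) : ∃ ζ : ℂ → ℂ, Differentiable ℂ ζ ∧ ∀ z, u z = v (ζ z) := by
  set A : Set ℂ := {z | ∃ w, LocIn u v z w} with hA
  have hAo : IsOpen A := by
    rw [Metric.isOpen_iff]
    rintro z ⟨w, ε, hε, ζ, hζ, h1, h2⟩
    refine ⟨ε, hε, fun z' hz' => ⟨ζ z', ?_⟩⟩
    obtain ⟨δ, hδ, hδ2⟩ := Metric.isOpen_iff.1 (isOpen_ball (x := z) (ε := ε)) z' hz'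
    exact ⟨δ, hδ, ζ, hζ.mono hδ2, rfl, fun y hy => h2 y (hδ2 hy)⟩
  have hAc : IsClosed A := by
    rw [← closure_subset_iff_isClosed]
    intro z hz
    have h1 : u z ∈ range v := by
      have h2 : u z ∈ closure (u '' A) := image_closure_subset_closure_image hu.1.continuous
        (mem_image_of_mem u hz)
      refine closure_minimal ?_ hemb.isClosed_range h2
      rintro _ ⟨z', ⟨w', hw'⟩, rfl⟩
      exact ⟨w', (LocIn.eq hw').symm⟩
    obtain ⟨w, hw⟩ := h1
    rcases hL D u v z w hu hv hw.symm (hv1 w) with h2 | ⟨⟨ε, hε, h2⟩, -⟩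
    · exact ⟨w, h2⟩
    · obtain ⟨O, hO, hO2⟩ := (hemb.isInducing.nhds_eq_comap w ▸ ball_mem_nhds w hε :
        ball w ε ∈ comap v (𝓝 (v w)))
      have h3 : u ⁻¹' O ∈ 𝓝 z := hu.1.continuous.continuousAt (by rwa [← hw])
      obtain ⟨z', hz', hz'A⟩ := mem_closure_iff_nhds.1 hz _ (inter_mem h3 (ball_mem_nhds z hε))
      obtain ⟨w', hw'⟩ := hz'A
      have h4 := LocIn.eq hw'
      have h5 : w' ∈ ball w ε := hO2 (by rw [mem_preimage, ← h4]; exact hz'.1)
      have h6 := (h2 z' hz'.2 w' h5 h4).1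
      rw [← h6]
      exact ⟨w', hw'⟩
  have hAu : A = univ := IsClopen.eq_univ ⟨hAc, hAo⟩ h0
  have h1 : ∀ z, ∃ w, LocIn u v z w := fun z => by
    have : z ∈ A := by rw [hAu]; trivial
    exact this
  choose ζ hζ using h1
  refine ⟨ζ, fun z => ?_, fun z => LocIn.eq (hζ z)⟩
  obtain ⟨ε, hε, ξ, hξ, h1, h2⟩ := hζ z
  have h3 : ζ =ᶠ[𝓝 z] ξ := by
    filter_upwards [ball_mem_nhds z hε] with y hy
    apply hemb.injective
    rw [← LocIn.eq (hζ y), h2 y hy]
  exact (hξ.differentiableAt (ball_mem_nhds z hε)).congr_of_eventuallyEq h3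

/-- Liouville for maps between tori -/
theorem affine_of_lattice {τ τ' : ℂ} (hτ : 0 < τ.im) {ζ : ℂ → ℂ} (hζ : Differentiable ℂ ζ)
    (h : ∀ (m n : ℤ) (z : ℂ), ζ (z + m + n * τ) = ζ z + m + n * τ') :
    τ = τ' ∧ ∃ β, ∀ z, ζ z = z + β := by
  have hd : Differentiable ℂ (deriv ζ) := (hζ.contDiff (n := 2)).differentiable_deriv_two
  have hper : ∀ (m n : ℤ) (z : ℂ), deriv ζ (z + m + n * τ) = deriv ζ z := fun m n z => by
    have h1 : deriv (fun z => ζ (z + (m + n * τ))) z = deriv ζ (z + (m + n * τ)) :=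
      deriv_comp_add_const _ _ _
    have h2 : (fun z => ζ (z + (m + n * τ))) = fun z => ζ z + (m + n * τ') := by
      funext z
      rw [← add_assoc, h, add_assoc]
    rw [h2, deriv_add_const] at h1
    rw [add_assoc, ← h1]
  have hb : Bornology.IsBounded (range (deriv ζ)) := by
    have hc : Continuous fun p : P2 => deriv ζ ((p.1 : ℂ) + p.2 * τ) := by
      have := hd.continuous
      fun_prop
    have h1 := (isCompact_Icc (a := (0 : P2)) (b := 1)).image hc
    refine h1.isBounded.subset ?_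
    rintro _ ⟨z, rfl⟩
    obtain ⟨m, n, hmn⟩ := K2A.exists_mem_Icc (coord τ z)
    refine ⟨_, hmn, ?_⟩
    rw [← hper m n z]
    show deriv ζ ((((coord τ z).1 + m : ℝ) : ℂ) + (((coord τ z).2 + n : ℝ) : ℂ) * τ) = _
    congr 1
    push_cast
    linear_combination coord_eq hτ z
  have hconst : ∀ z, deriv ζ z = deriv ζ 0 := fun z => hd.apply_eq_apply_of_bounded hb z 0
  have hlin : ∀ z, ζ z - deriv ζ 0 * z = ζ 0 - deriv ζ 0 * 0 := fun z => by
    refine is_const_of_deriv_eq_zero (f := fun z => ζ z - deriv ζ 0 * z) ?_ ?_ z 0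
    · exact hζ.sub (differentiable_id.const_mul _)
    · intro y
      have h1 : HasDerivAt (fun z => ζ z - deriv ζ 0 * z) (deriv ζ y - deriv ζ 0 * 1) y :=
        (hζ y).hasDerivAt.sub ((hasDerivAt_id y).const_mul _)
      rw [h1.deriv, hconst y, mul_one, sub_self]
  have h1 := hlin 1
  have h2 := hlin τ
  have h3 := h 1 0 0
  have h4 := h 0 1 0
  simp only [Int.cast_one, Int.cast_zero, zero_add, zero_mul, add_zero, one_mul] at h3 h4
  have hα : deriv ζ 0 = 1 := by
    rw [h3] at h1
    linear_combination -h1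
  refine ⟨?_, ζ 0, fun z => ?_⟩
  · rw [h4, hα] at h2
    linear_combination -h2
  · have := hlin z
    rw [hα] at this
    linear_combination this

theorem mean_translate {g : P2 → ℝ} (hg : Continuous g) (hp : Per g) (q : P2) :
    mean (fun p => g (p + q)) = mean g := by
  have h1 : ∀ (h : ℝ → ℝ), Function.Periodic h 1 → ∀ a : ℝ,
      ∫ x in Icc (0 : ℝ) 1, h (x + a) = ∫ x in Icc (0 : ℝ) 1, h x := by
    intro h hh a
    rw [integral_Icc_eq_integral_Ioc, integral_Icc_eq_integral_Ioc,
      ← intervalIntegral.integral_of_le zero_le_one, ← intervalIntegral.integral_of_le zero_le_one,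
      intervalIntegral.integral_comp_add_right]
    have := hh.intervalIntegral_add_eq a 0
    rw [zero_add] at this ⊢
    rw [add_comm 1 a, this]
  have hg' : Continuous fun p => g (p + q) := hg.comp (continuous_id.add continuous_const)
  rw [K2A.mean_eq_iterated hg', K2A.mean_eq_iterated hg]
  have h2 : ∀ t, ∫ s in Icc (0 : ℝ) 1, g ((s, t) + q) = ∫ s in Icc (0 : ℝ) 1, g (s, t + q.2) := by
    intro t
    refine h1 (fun s => g (s, t + q.2)) (fun s => ?_) q.1
    have := hp 1 0 (s, t + q.2)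
    simpa using this
  simp only [h2]
  refine h1 (fun t => ∫ s in Icc (0 : ℝ) 1, g (s, t)) (fun t => ?_) q.2
  refine integral_congr_ae (ae_of_all _ fun s => ?_)
  have := hp 0 1 (s, t)
  simpa using this

end Vale.Agent.P247.H74.L2

namespace Vale.Agent.P247.H74

/-- Package L2 -/
theorem L2_of (hL : L1_statement) : L2_statement := by
  intro D f f' τ τ' hf hf' hc hc' hi hj h0
  have hu := K2H.JH_up hf
  have hv := K2H.JH_up hf'
  have hv1 : ∀ w, fderiv ℝ (up f' τ') w 1 ≠ 0 := fun w => by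
    rw [K2H.fderiv_up_one hf'.smooth]
    exact hi _
  have hemb := L2.up_isClosedEmbedding hf'.im_pos hf'.smooth.continuous hf'.per hj
    hv.1.continuous
  obtain ⟨ζ, hζ, h1⟩ := L2.continuation hL hu hv hv1 hemb h0
  obtain ⟨hτ, β, hβ⟩ := L2.affine_of_lattice (τ' := τ') hf.im_pos hζ (fun m n z => by
    apply hemb.injective
    rw [L2.up_lift hf'.im_pos hf'.per, ← h1, ← h1, L2.up_lift hf.im_pos hf.per])
  subst hτ
  refine ⟨?_, rfl⟩
  -- the translation
  set q := coord τ β with hq
  have h2 : ∀ p, f p = lin q + f' (p + q) := fun p => by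
    have h3 := h1 ((p.1 : ℂ) + p.2 * τ)
    rw [hβ] at h3
    unfold up at h3
    rw [L2.coord_add τ ((p.1 : ℂ) + p.2 * τ) β, K2H.coord_apply τ hf.im_pos, ← hq] at h3
    have h4 : lin (p + q) = lin p + lin q := by
      funext i; fin_cases i <;> simp [lin]
    unfold phi at h3
    rw [h4, add_assoc] at h3
    exact add_left_cancel h3
  have hcomp : ∀ i : Fin 4, Continuous fun p => f' p i := fun i =>
    (continuous_apply i).comp hf'.smooth.continuous
  have hcomp' : ∀ i : Fin 4, Per fun p => f' p i := fun i m n p => by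
    simp only; rw [hf'.per]
  have h3 : ∀ i : Fin 4, mean (fun p => f p i) = lin q i + mean (fun p => f' p i) := fun i => by
    rw [← L2.mean_translate (hcomp i) (hcomp' i) q]
    have h5 : (fun p => f p i) = fun p => lin q i + f' (p + q) i := by
      funext p; rw [h2]; rfl
    have hc5 : Continuous fun p => f' (p + q) i :=
      (hcomp i).comp (continuous_id.add continuous_const)
    rw [h5, K2A.mean_add continuous_const hc5, K2A.mean_const]
  have h6 : q = 0 := by
    have e2 := h3 2
    have e3 := h3 3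
    rw [hc.1, hc'.1] at e2
    rw [hc.2, hc'.2] at e3
    apply Prod.ext
    · simpa [lin] using e2.symm
    · simpa [lin] using e3.symm
  funext p
  rw [h2, h6]
  have : lin 0 = 0 := by funext i; fin_cases i <;> simp [lin]
  rw [this, zero_add, add_zero]

/-- Package L2, without hypotheses -/
theorem L2 : L2_statement := L2_of L1

end Vale.Agent.P247.H74
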