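import Vale.Agent.P247.H74.K2H.K2H
import Vale.Agent.P247.H74.K2A.Per

/-!
# P247, L2: the lift of an injective torus is a closed embedding
-/

open scoped ContDiff Topology
open Set MeasureTheory Filter Metric Asymptotics

noncomputable section

namespace Vale.Agent.P247.H74.L2

variable {τ : ℂ} {f : P2 → R4}

theorem coord_eq (hτ : 0 < τ.im) (z : ℂ) :
    (((coord τ z).1 : ℝ) : ℂ) + (((coord τ z).2 : ℝ) : ℂ) * τ = z := by
  have h : τ.im ≠ 0 := hτ.ne'
  apply Complex.ext
  · simp [coord]; ring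
  · simp [coord, h]

theorem norm_le_coord (hτ : 0 < τ.im) (z : ℂ) : ‖z‖ ≤ (1 + ‖τ‖) * ‖coord τ z‖ := by
  have h1 : |(coord τ z).1| ≤ ‖coord τ z‖ := norm_fst_le (coord τ z)
  have h2 : |(coord τ z).2| ≤ ‖coord τ z‖ := norm_snd_le (coord τ z)
  conv_lhs => rw [← coord_eq hτ z]
  calc ‖(((coord τ z).1 : ℝ) : ℂ) + (((coord τ z).2 : ℝ) : ℂ) * τ‖
      ≤ |(coord τ z).1| + |(coord τ z).2| * ‖τ‖ := by
        refine (norm_add_le _ _).trans ?_
        rw [norm_mul, Complex.norm_real, Complex.norm_real, Real.norm_eq_abs, Real.norm_eq_abs]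
    _ ≤ ‖coord τ z‖ + ‖coord τ z‖ * ‖τ‖ := by gcongr
    _ = _ := by ring

theorem coord_add (τ z w : ℂ) : coord τ (z + w) = coord τ z + coord τ w := by
  rw [← K2H.coordL_apply, ← K2H.coordL_apply, ← K2H.coordL_apply, map_add]

theorem coord_lattice (hτ : 0 < τ.im) (z : ℂ) (m n : ℤ) :
    coord τ (z + m + n * τ) = ((coord τ z).1 + m, (coord τ z).2 + n) := by
  have h : τ.im ≠ 0 := hτ.ne'
  rw [add_assoc, coord_add]
  have h1 : coord τ ((m : ℂ) + n * τ) = ((m : ℝ), (n : ℝ)) := by
    have := K2H.coord_apply τ hτ ((m : ℝ), (n : ℝ))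
    simpa using this
  rw [h1]; rfl

theorem coord_injective (hτ : 0 < τ.im) : Function.Injective (coord τ) := fun z w h => by
  rw [← coord_eq hτ z, ← coord_eq hτ w, h]

theorem norm_le_lin (p : P2) : ‖p‖ ≤ ‖lin p‖ := by
  rw [Prod.norm_def]
  apply max_le
  · exact norm_le_pi_norm (lin p) 2
  · exact norm_le_pi_norm (lin p) 3

/-- the lattice acts on the lift -/
theorem up_lift (hτ : 0 < τ.im) (hf : Per f) : Lift τ (up f τ) := fun m n z => by
  unfold up
  rw [coord_lattice hτ, K2A.phi_per hf]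
  funext i
  fin_cases i <;> simp [e]

theorem up_injective (hτ : 0 < τ.im) (hi : Inj f) : Function.Injective (up f τ) :=
  hi.comp (coord_injective hτ)

/-- the lift is proper -/
theorem norm_le_up (hτ : 0 < τ.im) (hf : Continuous f) (hp : Per f) :
    ∃ B, ∀ z, ‖z‖ ≤ (1 + ‖τ‖) * (‖up f τ z‖ + B) := by
  obtain ⟨B, hB⟩ := (isCompact_Icc (a := (0 : P2)) (b := 1)).exists_bound_of_continuousOn
    hf.continuousOn
  have hB2 := K2A.per_bdd hp hB
  refine ⟨B, fun z => (norm_le_coord hτ z).trans ?_⟩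
  gcongr
  refine (norm_le_lin _).trans ?_
  have h1 : lin (coord τ z) = up f τ z - f (coord τ z) := by simp [up, phi]
  rw [h1]
  exact (norm_sub_le _ _).trans (by gcongr; exact hB2 _)

theorem up_isClosedEmbedding (hτ : 0 < τ.im) (hf : Continuous f) (hp : Per f) (hi : Inj f)
    (hc : Continuous (up f τ)) : Topology.IsClosedEmbedding (up f τ) := by
  obtain ⟨B, hB⟩ := norm_le_up hτ hf hp
  have hprop : Tendsto (up f τ) (cocompact ℂ) (cocompact R4) := by
    rw [← Metric.cobounded_eq_cocompact (α := R4), ← comap_norm_atTop (E := R4), tendsto_comap_iff]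
    have h1 := tendsto_norm_cocompact_atTop (E := ℂ)
    rw [Filter.tendsto_atTop] at h1 ⊢
    intro b
    filter_upwards [h1 ((1 + ‖τ‖) * (b + B))] with z hz
    have h2 := hz.trans (hB z)
    have h3 : (0 : ℝ) < 1 + ‖τ‖ := by positivity
    have h4 := le_of_mul_le_mul_left h2 h3
    simp only [Function.comp]
    linarith
  exact Topology.IsClosedEmbedding.of_continuous_injective_isClosedMap hc (up_injective hτ hi)
    (isProperMap_iff_tendsto_cocompact.2 ⟨hc, hprop⟩).isClosedMap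

end Vale.Agent.P247.H74.L2
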