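import Vale.Agent.P247.H74.L1.Alt

/-!
# P247, L1: stability of intersections
-/

open scoped ContDiff Topology NNReal
open Set MeasureTheory Filter Metric Asymptotics

noncomputable section

namespace Vale.Agent.P247.H74.L1

/-- inverse of a map which is close to the identity -/
theorem inv_lemma (f : ℂ → ℂ) (w₀ : ℂ) (δ : ℝ) (hδ : 0 < δ)
    (hf : ApproximatesLinearOn f (ContinuousLinearMap.id ℝ ℂ) (closedBall w₀ δ) (1 / 2))
    (h1 : ‖f w₀ - w₀‖ ≤ δ / 4) :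
    ∃ g : ℂ → ℂ, ContinuousOn g (closedBall w₀ (δ / 4)) ∧ ∀ y ∈ closedBall w₀ (δ / 4),
      g y ∈ closedBall w₀ δ ∧ f (g y) = y := by
  let N : (ContinuousLinearMap.id ℝ ℂ).NonlinearRightInverse :=
    { toFun := id, nnnorm := 1, bound' := fun y => by simp, right_inv' := fun y => by simp }
  have h2 := hf.surjOn_closedBall_of_nonlinearRightInverse N (ε := δ) (b := w₀) hδ.le subset_rfl
  have h3 : (((N.nnnorm : ℝ))⁻¹ - ((1 / 2 : ℝ≥0) : ℝ)) * δ = δ / 2 := by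
    simp only [N]
    push_cast
    ring
  rw [h3] at h2
  have h4 : ∀ y ∈ closedBall w₀ (δ / 4), ∃ x ∈ closedBall w₀ δ, f x = y := fun y hy => by
    have h5 : y ∈ closedBall (f w₀) (δ / 2) := by
      rw [mem_closedBall, dist_eq_norm] at hy ⊢
      have : y - f w₀ = (y - w₀) - (f w₀ - w₀) := by ring
      rw [this]
      linarith [norm_sub_le (y - w₀) (f w₀ - w₀)]
    exact h2 h5
  choose! g hg1 hg2 using h4
  refine ⟨g, ?_, fun y hy => ⟨hg1 y hy, hg2 y hy⟩⟩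
  have h5 : LipschitzOnWith 2 g (closedBall w₀ (δ / 4)) := by
    refine LipschitzOnWith.of_dist_le_mul fun y hy y' hy' => ?_
    have h6 := hf _ (hg1 y hy) _ (hg1 y' hy')
    rw [hg2 y hy, hg2 y' hy'] at h6
    rw [dist_eq_norm, dist_eq_norm]
    rw [ContinuousLinearMap.id_apply] at h6
    have h7 : g y - g y' = (y - y') - (y - y' - (g y - g y')) := by ring
    have h8 := norm_sub_le (y - y') (y - y' - (g y - g y'))
    rw [← h7] at h8
    push_cast at h6 ⊢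
    linarith
  exact h5.continuousOn

/-- locally uniform convergence, at a point of continuity -/
theorem evt_mem {α β : Type*} [TopologicalSpace α] [PseudoMetricSpace β] {F : ℕ → α → β} {f : α → β}
    (hF : TendstoLocallyUniformly F f atTop) {x : α} (hf : ContinuousAt f x) {V : Set β}
    (hV : V ∈ 𝓝 (f x)) : ∃ t ∈ 𝓝 x, ∀ᶠ n in atTop, ∀ y ∈ t, F n y ∈ V := by
  obtain ⟨ε, hε, hV2⟩ := Metric.mem_nhds_iff.1 hV
  obtain ⟨t, ht, ht2⟩ := Metric.tendstoLocallyUniformly_iff.1 hF (ε / 2) (by positivity) x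
  have h1 := Metric.continuousAt_iff'.1 hf (ε / 2) (by positivity)
  refine ⟨_, inter_mem ht h1, ?_⟩
  filter_upwards [ht2] with n hn y hy
  apply hV2
  have h2 := hn y hy.1
  have h3 : dist (f y) (f x) < ε / 2 := hy.2
  rw [mem_ball]
  calc dist (F n y) (f x) ≤ dist (F n y) (f y) + dist (f y) (f x) := dist_triangle _ _ _
    _ < ε := by rw [dist_comm (F n y)]; linarith

/-- composition with a function continuous at the points of a compact set -/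
theorem evt_comp {α β γ : Type*} [TopologicalSpace α] [PseudoMetricSpace β] [PseudoMetricSpace γ]
    {F : ℕ → α → β} {f : α → β}
    (hF : TendstoLocallyUniformly F f atTop) (hf : Continuous f) {K : Set α} (hK : IsCompact K)
    {Φ : β → γ} (hΦ : ∀ x ∈ K, ContinuousAt Φ (f x)) :
    TendstoUniformlyOn (fun n x => Φ (F n x)) (fun x => Φ (f x)) atTop K := by
  rw [← tendstoLocallyUniformlyOn_iff_tendstoUniformlyOn_of_compact hK]
  rw [Metric.tendstoLocallyUniformlyOn_iff]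
  intro ε hε x hx
  have h1 := Metric.continuousAt_iff'.1 (hΦ x hx) (ε / 2) (by positivity)
  obtain ⟨t, ht, ht2⟩ := evt_mem hF hf.continuousAt h1
  have h2 : {y | dist (Φ (f y)) (Φ (f x)) < ε / 2} ∈ 𝓝 x := hf.continuousAt.eventually h1
  refine ⟨_, mem_nhdsWithin_of_mem_nhds (inter_mem ht h2), ?_⟩
  filter_upwards [ht2] with n hn y hy
  have h3 : dist (Φ (F n y)) (Φ (f x)) < ε / 2 := hn y hy.1
  have h4 : dist (Φ (f y)) (Φ (f x)) < ε / 2 := hy.2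
  calc dist (Φ (f y)) (Φ (F n y)) ≤ dist (Φ (f y)) (Φ (f x)) + dist (Φ (f x)) (Φ (F n y)) :=
        dist_triangle _ _ _
    _ < ε := by rw [dist_comm (Φ (f x))]; linarith

variable {D : Data} {u v : ℂ → R4} {b : R4} {z₀ w₀ : ℂ} {Ψ : R4 → ℂ × ℂ}

/-- the first coordinate of a perturbation of `v` is close to the identity -/
theorem evt_rho (hv : JH D v) (hC : Coord D v w₀ b Ψ) {V : Set R4} (hV : V ∈ 𝓝 (v w₀))
    {t₀ : Set ℂ} (ht₀ : t₀ ∈ 𝓝 w₀) {vn : ℕ → ℂ → R4} (hvn : ∀ n, ContDiff ℝ 1 (vn n))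
    (hT : TendC1 vn v) :
    ∃ δ, 0 < δ ∧ closedBall w₀ δ ⊆ t₀ ∧ ∀ᶠ n in atTop, (∀ w ∈ closedBall w₀ δ, vn n w ∈ V) ∧
      ApproximatesLinearOn (fun w => (Ψ (vn n w)).1) (ContinuousLinearMap.id ℝ ℂ)
        (closedBall w₀ δ) (1 / 2) ∧ ‖(Ψ (vn n w₀)).1 - w₀‖ ≤ δ / 4 := by
  set Φ : R4 × (ℂ →L[ℝ] R4) → (ℂ →L[ℝ] ℂ) := fun p =>
    (ContinuousLinearMap.fst ℝ ℂ ℂ).comp ((fderiv ℝ Ψ p.1).comp p.2) with hΦ
  have hs := hC.smooth.self_of_nhds
  have hΦc : ContinuousAt Φ (v w₀, fderiv ℝ v w₀) := by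
    have h1 : ContinuousAt (fderiv ℝ Ψ) (v w₀) :=
      (hs.fderiv_right (m := 1) (by norm_num)).continuousAt
    have h2 : ContinuousAt (fun p : R4 × (ℂ →L[ℝ] R4) => fderiv ℝ Ψ p.1) (v w₀, fderiv ℝ v w₀) :=
      ContinuousAt.comp (f := Prod.fst) h1 continuousAt_fst
    exact continuousAt_const.clm_comp (h2.clm_comp continuousAt_snd)
  have hΦ0 : Φ (v w₀, fderiv ℝ v w₀) = ContinuousLinearMap.id ℝ ℂ := by
    have h1 : HasFDerivAt (fun w => (Ψ (v w)).1) (Φ (v w₀, fderiv ℝ v w₀)) w₀ :=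
      (((hs.differentiableAt (by norm_num)).hasFDerivAt).comp w₀
        ((hv.1.differentiable (by simp)) w₀).hasFDerivAt).fst
    have h2 : HasFDerivAt (fun w => (Ψ (v w)).1) (ContinuousLinearMap.id ℝ ℂ) w₀ := by
      refine (hasFDerivAt_id w₀).congr_of_eventuallyEq ?_
      filter_upwards [evt_v hC] with w hw
      rw [hw]; rfl
    exact h1.unique h2
  have h1 := Metric.continuousAt_iff'.1 hΦc (1 / 2) (by norm_num)
  rw [hΦ0] at h1
  obtain ⟨P, hP, Q, hQ, hPQ⟩ := mem_nhds_prod_iff.1 h1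
  obtain ⟨t₁, ht₁, h2⟩ := evt_mem hT.1 hv.1.continuous.continuousAt
    (inter_mem (inter_mem hV hC.smooth) hP)
  obtain ⟨t₂, ht₂, h3⟩ := evt_mem hT.2 (hv.1.continuous_fderiv (by simp)).continuousAt hQ
  obtain ⟨δ, hδ, hδ2⟩ := Metric.nhds_basis_closedBall.mem_iff.1
    (inter_mem (inter_mem ht₀ ht₁) ht₂)
  refine ⟨δ, hδ, fun w hw => (hδ2 hw).1.1, ?_⟩
  have h4 : ∀ᶠ n in atTop, ‖(Ψ (vn n w₀)).1 - w₀‖ ≤ δ / 4 := by
    have h5 : Tendsto (fun n => vn n w₀) atTop (𝓝 (v w₀)) := 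
      (tendstoLocallyUniformlyOn_univ.2 hT.1).tendsto_at (mem_univ _)
    have h6 : Tendsto (fun n => (Ψ (vn n w₀)).1) atTop (𝓝 w₀) := by
      have := (hs.continuousAt.fst.tendsto).comp h5
      rwa [hC.base] at this
    filter_upwards [h6.eventually (closedBall_mem_nhds w₀ (show 0 < δ / 4 by positivity))] with n hn
    rwa [← dist_eq_norm]
  filter_upwards [h2, h3, h4] with n hn2 hn3 hn4
  refine ⟨fun w hw => (hn2 w (hδ2 hw).1.2).1.1, fun x hx y hy => ?_, hn4⟩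
  have h5 : ∀ w ∈ closedBall w₀ δ, HasFDerivWithinAt (fun w => (Ψ (vn n w)).1)
      (Φ (vn n w, fderiv ℝ (vn n) w)) (closedBall w₀ δ) w := fun w hw => by
    have h6 : ContDiffAt ℝ 2 Ψ (vn n w) := (hn2 w (hδ2 hw).1.2).1.2
    exact (((h6.differentiableAt (by norm_num)).hasFDerivAt).comp w
      (((hvn n).differentiable (by norm_num)) w).hasFDerivAt).fst.hasFDerivWithinAt
  have h6 : ∀ w ∈ closedBall w₀ δ, ‖Φ (vn n w, fderiv ℝ (vn n) w) - ContinuousLinearMap.id ℝ ℂ‖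
      ≤ 1 / 2 := fun w hw => by
    have h7 : (vn n w, fderiv ℝ (vn n) w) ∈ P ×ˢ Q :=
      ⟨(hn2 w (hδ2 hw).1.2).2, hn3 w (hδ2 hw).2⟩
    have h8 : dist (Φ (vn n w, fderiv ℝ (vn n) w)) (ContinuousLinearMap.id ℝ ℂ) < 1 / 2 := hPQ h7
    rw [← dist_eq_norm]
    exact h8.le
  have h7 := (convex_closedBall w₀ δ).norm_image_sub_le_of_norm_hasFDerivWithin_le' h5 h6 hy hx
  push_cast
  exact h7

/-- the coordinates of a perturbation of `u` -/
theorem evt_u (hu : JH D u) (h0 : u z₀ = v w₀) (hC : Coord D v w₀ b Ψ) {V : Set R4}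
    (hV : V ∈ 𝓝 (v w₀)) {W : Set ℂ} (hW : W ∈ 𝓝 w₀) {un : ℕ → ℂ → R4} (hT : TendC1 un u) :
    ∃ t ∈ 𝓝 z₀, ∀ᶠ n in atTop, ∀ z ∈ t, un n z ∈ V ∧ (Ψ (un n z)).1 ∈ W := by
  have h1 : {x | (Ψ x).1 ∈ W} ∈ 𝓝 (v w₀) := by
    have h2 := hC.smooth.self_of_nhds.continuousAt.fst.tendsto
    rw [hC.base] at h2
    exact h2.eventually hW
  obtain ⟨t, ht, h2⟩ := evt_mem hT.1 hu.1.continuous.continuousAt
    (by rw [h0]; exact inter_mem hV h1)
  exact ⟨t, ht, h2⟩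

/-- stability -/
theorem stab_of (W1 : W1_statement) (W3 : W3_statement) (W5 : W5_statement) (W6 : W6_statement)
    (hu : JH D u) (hv : JH D v) (h0 : u z₀ = v w₀) (hC : Coord D v w₀ b Ψ)
    {m : ℕ} {a : ℂ} (hm : 1 ≤ m) (ha : a ≠ 0)
    (h : (fun z => (Ψ (u z)).2 - a * (z - z₀) ^ m) =o[𝓝 z₀] (fun z => (z - z₀) ^ m)) :
    Stab u v z₀ w₀ := by
  intro ε hε un vn hun hvn hTu hTv
  -- the good neighbourhood
  set V : Set R4 := {x | Th D v b (Ψ x) = x ∧ ContinuousAt Ψ x} with hVdef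
  have hV : V ∈ 𝓝 (v w₀) := by
    filter_upwards [hC.right, hC.smooth] with x h1 h2
    exact ⟨h1, h2.continuousAt⟩
  have hvV : ∀ᶠ w in 𝓝 w₀, v w ∈ V := hv.1.continuous.continuousAt.eventually hV
  obtain ⟨δ, hδ, hδ2, hδ3⟩ := evt_rho hv hC hV
    (inter_mem (inter_mem (ball_mem_nhds w₀ hε) hvV) (evt_v hC)) hvn hTv
  obtain ⟨t, ht, ht2⟩ := evt_u hu h0 hC hV (closedBall_mem_nhds w₀ (show 0 < δ / 4 by positivity)) hTu
  have huV : ∀ᶠ z in 𝓝 z₀, u z ∈ V := (tendsto_u hu h0).eventually hV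
  -- the radius
  have hwind : ∀ᶠ r in 𝓝[>] (0 : ℝ), HasWinding (fun z => (Ψ (u z)).2) z₀ r m := by
    refine W6 _ z₀ a m ha ?_ ?_
    · refine Filter.Eventually.filter_mono nhdsWithin_le_nhds ?_
      filter_upwards [evt_contDiffAt hu h0 hC] with z hz
      exact hz.continuousAt.snd
    · simpa using h.mono nhdsWithin_le_nhds
  have hne := evt_ne ha h
  rw [eventually_nhdsWithin_iff] at hne
  obtain ⟨r₀, hr₀, hr₀2⟩ := Metric.nhds_basis_closedBall.mem_iff.1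
    (inter_mem (inter_mem (inter_mem (ball_mem_nhds z₀ hε) ht) huV) hne)
  obtain ⟨r, ⟨hr1, hr2⟩, hr3⟩ : ∃ r : ℝ, (0 < r ∧ r ≤ r₀) ∧
      HasWinding (fun z => (Ψ (u z)).2) z₀ r m := by
    have h1 : ∀ᶠ r in 𝓝[>] (0 : ℝ), 0 < r ∧ r ≤ r₀ := by
      filter_upwards [Ioc_mem_nhdsGT hr₀] with r hr using hr
    exact (h1.and hwind).exists
  have hsub : closedBall z₀ r ⊆ closedBall z₀ r₀ := closedBall_subset_closedBall hr2
  have hNc : ContinuousOn (fun z => (Ψ (u z)).2) (closedBall z₀ r) := fun z hz =>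
    (ContinuousAt.comp (f := u) (hr₀2 (hsub hz)).1.2.2
      hu.1.continuous.continuousAt).snd.continuousWithinAt
  have hNne : ∀ z ∈ sphere z₀ r, (Ψ (u z)).2 ≠ 0 := fun z hz =>
    (hr₀2 (hsub (sphere_subset_closedBall hz))).2 (ne_of_mem_sphere hz hr1.ne')
  obtain ⟨μ, hμ, hμ2⟩ : ∃ μ > 0, ∀ z ∈ sphere z₀ r, μ ≤ ‖(Ψ (u z)).2‖ := by
    have h1 : (sphere z₀ r).Nonempty := NormedSpace.sphere_nonempty.2 hr1.le
    obtain ⟨z₁, hz₁, h2⟩ := (isCompact_sphere z₀ r).exists_isMinOn h1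
      (hNc.mono sphere_subset_closedBall).norm
    exact ⟨_, norm_pos_iff.2 (hNne z₁ hz₁), fun z hz => h2 hz⟩
  have c1 := Metric.tendstoUniformlyOn_iff.1 (evt_comp hTu.1 hu.1.continuous
    (isCompact_closedBall z₀ r) (Φ := Ψ) (fun z hz => (hr₀2 (hsub hz)).1.2.2)) (μ / 2) (by positivity)
  have c2 := Metric.tendstoUniformlyOn_iff.1 (evt_comp hTv.1 hv.1.continuous
    (isCompact_closedBall w₀ δ) (Φ := Ψ) (fun w hw => (hδ2 hw).1.2.2)) (μ / 2) (by positivity)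
  filter_upwards [hδ3, ht2, c1, c2] with n ⟨a1, a2, a3⟩ b1 c1 c2
  obtain ⟨σ, hσ1, hσ2⟩ := inv_lemma _ w₀ δ hδ a2 a3
  have hZ : ∀ z ∈ closedBall z₀ r, un n z ∈ V ∧ (Ψ (un n z)).1 ∈ closedBall w₀ (δ / 4) :=
    fun z hz => b1 z (hr₀2 (hsub hz)).1.1.2
  set g : ℂ → ℂ := fun z => (Ψ (un n z)).2 - (Ψ (vn n (σ (Ψ (un n z)).1))).2 with hg
  have hQc : ContinuousOn (fun z => Ψ (un n z)) (closedBall z₀ r) := fun z hz =>
    (ContinuousAt.comp (f := un n) (hZ z hz).1.2 (hun n).continuous.continuousAt).continuousWithinAt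
  have hνc : ContinuousOn (fun w => Ψ (vn n w)) (closedBall w₀ δ) := fun w hw =>
    (ContinuousAt.comp (f := vn n) (a1 w hw).2 (hvn n).continuous.continuousAt).continuousWithinAt
  have hgc : ContinuousOn g (closedBall z₀ r) := by
    refine hQc.snd.sub ?_
    have h1 : ContinuousOn (fun z => σ (Ψ (un n z)).1) (closedBall z₀ r) :=
      hσ1.comp hQc.fst (fun z hz => (hZ z hz).2)
    have h2 : ContinuousOn (fun z => Ψ (vn n (σ (Ψ (un n z)).1))) (closedBall z₀ r) :=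
      hνc.comp h1 (fun z hz => (hσ2 _ (hZ z hz).2).1)
    exact h2.snd
  have hclose : ∀ z ∈ sphere z₀ r, ‖g z - (Ψ (u z)).2‖ < ‖(Ψ (u z)).2‖ := fun z hz => by
    have hz' := sphere_subset_closedBall hz
    have hw := (hσ2 _ (hZ z hz').2).1
    have e1 := c1 z hz'
    have e2 := c2 _ hw
    rw [(hδ2 hw).2] at e2
    rw [dist_comm, dist_eq_norm] at e1 e2
    have e3 := (norm_snd_le _).trans_lt e1
    have e4 := (norm_snd_le _).trans_lt e2
    rw [Prod.snd_sub] at e3 e4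
    rw [sub_zero] at e4
    have e5 : g z - (Ψ (u z)).2 = ((Ψ (un n z)).2 - (Ψ (u z)).2) -
        (Ψ (vn n (σ (Ψ (un n z)).1))).2 := by
      simp only [hg]; ring
    rw [e5]
    linarith [norm_sub_le ((Ψ (un n z)).2 - (Ψ (u z)).2) (Ψ (vn n (σ (Ψ (un n z)).1))).2, hμ2 z hz]
  have hw1 : HasWinding g z₀ r m := W5 _ g z₀ r m hr1 (hNc.mono sphere_subset_closedBall)
    (hgc.mono sphere_subset_closedBall) hclose hr3
  obtain ⟨z, hz, hgz⟩ : ∃ z ∈ closedBall z₀ r, g z = 0 := by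
    by_contra hcon
    push Not at hcon
    have := W1 g z₀ r m 0 hr1 hw1 (W3 g z₀ r hr1 hgc hcon)
    omega
  have hσz := hσ2 _ (hZ z hz).2
  refine ⟨z, (hr₀2 (hsub hz)).1.1.1, σ (Ψ (un n z)).1, (hδ2 hσz.1).1.1, ?_⟩
  have e1 : Ψ (un n z) = Ψ (vn n (σ (Ψ (un n z)).1)) := by
    apply Prod.ext
    · exact hσz.2.symm
    · exact sub_eq_zero.1 hgz
  calc un n z = Th D v b (Ψ (un n z)) := (hZ z hz).1.1.symm
    _ = Th D v b (Ψ (vn n (σ (Ψ (un n z)).1))) := by rw [← e1]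
    _ = _ := (a1 _ hσz.1).1

end Vale.Agent.P247.H74.L1

namespace Vale.Agent.P247.H74

/-- Package L1. -/
theorem L1_of (W1 : W1_statement) (W3 : W3_statement) (W5 : W5_statement) (W6 : W6_statement)
    (SP : SP_statement) : L1_statement := by
  intro D u v z₀ w₀ hu hv h0 hv1
  obtain ⟨b, Ψ, hC⟩ := L1.exists_coord hv w₀ hv1
  rcases L1.dich SP hu hv h0 hC with h | ⟨m, a, hm, ha, h⟩
  · exact Or.inl (L1.locIn_of hu hv h0 hC h)
  · exact Or.inr ⟨L1.isol_of h0 hC ha h, L1.stab_of W1 W3 W5 W6 hu hv h0 hC hm ha h⟩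

end Vale.Agent.P247.H74
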